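import Mathlib

/-! Divergence of an arc vector and the cut condition for undirected capacities. -/

set_option autoImplicit false
open Finset

namespace Crest.Agent.N325.Fl

variable {V E : Type*} [Fintype V] [Fintype E] [DecidableEq V]

/-- net inflow of the arc vector `z` at `v`. -/
def dv {R : Type*} [AddCommGroup R] (src dst : E → V) (z : E → R) (v : V) : R :=
  (∑ e, if dst e = v then z e else 0) - ∑ e, if src e = v then z e else 0

section basic
variable {R : Type*} [CommRing R] (src dst : E → V)

omit [Fintype V] in
theorem dv_add (x z : E → R) (v : V) :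
    dv src dst (fun e => x e + z e) v = dv src dst x v + dv src dst z v := by
  unfold dv
  have h : ∀ (p : E → V), (∑ e, if p e = v then x e + z e else 0) =
      (∑ e, if p e = v then x e else 0) + ∑ e, if p e = v then z e else 0 := by
    intro p; rw [← sum_add_distrib]; refine sum_congr rfl fun e _ => ?_; split_ifs <;> simp
  rw [h, h]; ring

omit [Fintype V] in
theorem dv_smul (a : R) (z : E → R) (v : V) :
    dv src dst (fun e => a * z e) v = a * dv src dst z v := by
  unfold dv
  have h : ∀ (p : E → V), (∑ e, if p e = v then a * z e else 0) =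
      a * ∑ e, if p e = v then z e else 0 := by
    intro p; rw [mul_sum]; refine sum_congr rfl fun e _ => ?_; split_ifs <;> simp
  rw [h, h]; ring

omit [Fintype V] in
theorem dv_sub (x z : E → R) (v : V) :
    dv src dst (fun e => x e - z e) v = dv src dst x v - dv src dst z v := by
  have h1 := dv_add src dst x (fun e => (-1) * z e) v
  rw [dv_smul] at h1
  have : (fun e => x e - z e) = fun e => x e + (-1) * z e := by funext e; ring
  rw [this, h1]; ring

omit [Fintype V] in
theorem dv_zero (v : V) : dv src dst (fun _ => (0 : R)) v = 0 := by simp [dv]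

/-- summation by parts. -/
theorem sum_mul_dv (y : V → R) (z : E → R) :
    ∑ v, y v * dv src dst z v = ∑ e, z e * (y (dst e) - y (src e)) := by
  unfold dv
  have h : ∀ (p : E → V), ∑ v, y v * (∑ e, if p e = v then z e else 0) = ∑ e, z e * y (p e) := by
    intro p
    simp_rw [mul_sum]
    rw [sum_comm]
    refine sum_congr rfl fun e _ => ?_
    rw [sum_eq_single (p e)]
    · simp [mul_comm]
    · intro v _ hv; simp [Ne.symm hv]
    · simp
  simp_rw [mul_sub, sum_sub_distrib, h]

theorem sum_dv (z : E → R) : ∑ v, dv src dst z v = 0 := by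
  simpa using sum_mul_dv src dst (fun _ => (1 : R)) z

omit [Fintype V] in
theorem dv_cast (z : E → ℤ) (v : V) :
    dv src dst (fun e => (z e : R)) v = ((dv src dst z v : ℤ) : R) := by
  unfold dv; push_cast; rfl

end basic

/-- total weight of the arcs with exactly one end in `S`. -/
def cut (src dst : E → V) (u : E → ℝ) (S : Finset V) : ℝ :=
  ∑ e, if (src e ∈ S ↔ dst e ∈ S) then 0 else u e

theorem coarea (src dst : E → V) (u : E → ℝ) (g : V → ℝ)
    (h : ∀ S : Finset V, |∑ v ∈ S, g v| ≤ cut src dst u S) (y : V → ℝ) :
    ∑ v, y v * g v ≤ ∑ e, u e * |y (dst e) - y (src e)| := by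
  have h0 : ∑ v, g v = 0 := by
    have := h univ
    simp only [cut, mem_univ, if_true, sum_const_zero] at this
    exact abs_nonpos_iff.1 this
  have key : ∀ (k : ℕ) (y : V → ℝ), (∀ v, 0 ≤ y v) → #(univ.filter fun v => 0 < y v) ≤ k →
      ∑ v, y v * g v ≤ ∑ e, u e * |y (dst e) - y (src e)| := by
    intro k
    induction k with
    | zero =>
      intro y hy hk
      have : ∀ v, y v = 0 := by
        intro v
        by_contra hv
        have : v ∈ univ.filter fun v => 0 < y v := by
          simp [lt_of_le_of_ne (hy v) (Ne.symm hv)]
        have := card_pos.2 ⟨v, this⟩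
        omega
      simp [this]
    | succ k ih =>
      intro y hy hk
      set S := univ.filter fun v => 0 < y v with hS
      rcases S.eq_empty_or_nonempty with hE | hne
      · exact ih y hy (by rw [← hS, hE]; simp)
      obtain ⟨v0, hv0, hmin⟩ := exists_min_image S y hne
      have hmem : ∀ v, v ∈ S ↔ 0 < y v := by intro v; simp [hS]
      have ha : 0 < y v0 := (hmem v0).1 hv0
      have hz : ∀ v, v ∉ S → y v = 0 := fun v hv =>
        le_antisymm (not_lt.1 fun h' => hv ((hmem v).2 h')) (hy v)
      set y' : V → ℝ := fun v => y v - if v ∈ S then y v0 else 0 with hy'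
      have hy'0 : ∀ v, 0 ≤ y' v := by
        intro v; simp only [hy']; split_ifs with hv
        · linarith [hmin v hv]
        · linarith [hy v]
      have hc : #(univ.filter fun v => 0 < y' v) ≤ k := by
        have hsub : (univ.filter fun v => 0 < y' v) ⊆ S.erase v0 := by
          intro v hv
          simp only [mem_filter, mem_univ, true_and, hy'] at hv
          rw [mem_erase]
          by_cases hvS : v ∈ S
          · refine ⟨?_, hvS⟩
            rintro rfl
            simp [hvS] at hv
          · simp [hvS, hz v hvS] at hv
        have := card_le_card hsub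
        rw [card_erase_of_mem hv0] at this
        omega
      have h1 := ih y' hy'0 hc
      have h2 : ∑ v, y v * g v = ∑ v, y' v * g v + y v0 * ∑ v ∈ S, g v := by
        rw [mul_sum, ← sum_ite_mem_eq S, ← sum_add_distrib]
        · refine sum_congr rfl fun v _ => ?_
          simp only [hy']; split_ifs <;> ring
      have h3 : ∑ e, u e * |y (dst e) - y (src e)| =
          ∑ e, u e * |y' (dst e) - y' (src e)| + y v0 * cut src dst u S := by
        rw [cut, mul_sum, ← sum_add_distrib]
        refine sum_congr rfl fun e _ => ?_
        by_cases h1 : src e ∈ S <;> by_cases h2 : dst e ∈ S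
        · simp [hy', h1, h2]
        · have := hmin _ h1
          simp only [hy', h1, h2, hz _ h2, if_true, if_false, true_iff]
          rw [abs_of_nonpos (by linarith), abs_of_nonpos (by linarith)]; ring
        · have := hmin _ h2
          simp only [hy', h1, h2, hz _ h1, if_true, if_false, false_iff, not_true]
          rw [abs_of_nonneg (by linarith), abs_of_nonneg (by linarith)]; ring
        · simp [hy', h1, h2]
      have h4 := (le_abs_self _).trans (h S)
      rw [h2, h3]
      nlinarith
  set a := ∑ v, |y v| with ha
  have hpos : ∀ v, 0 ≤ y v + a := by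
    intro v
    have := single_le_sum (f := fun v => |y v|) (fun v _ => abs_nonneg _) (mem_univ v)
    linarith [neg_abs_le (y v)]
  have := key _ (fun v => y v + a) hpos le_rfl
  simp only [add_mul, sum_add_distrib, ← mul_sum, h0, add_sub_add_right_eq_sub] at this
  linarith

/-- the cut condition gives a flow (undirected capacities). -/
theorem gale (src dst : E → V) (u : E → ℝ) (hu : ∀ e, 0 ≤ u e) (g : V → ℝ)
    (h : ∀ S : Finset V, |∑ v ∈ S, g v| ≤ cut src dst u S) :
    ∃ z : E → ℝ, (∀ v, dv src dst z v = g v) ∧ ∀ e, |z e| ≤ u e := by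
  classical
  let L : (E → ℝ) →ₗ[ℝ] (V → ℝ) :=
    { toFun := fun z => dv src dst z
      map_add' := fun x z => funext fun v => dv_add src dst x z v
      map_smul' := fun a z => funext fun v => dv_smul src dst a z v }
  let B : Set (E → ℝ) := Set.Icc (fun e => -u e) u
  have hK : IsCompact (L '' B) := isCompact_Icc.image L.continuous_of_finiteDimensional
  have hC : Convex ℝ (L '' B) := (convex_Icc _ _).linear_image L
  by_contra hne
  have hg : g ∉ L '' B := by
    rintro ⟨z, hz, rfl⟩
    exact hne ⟨z, fun v => rfl, fun e => abs_le.2 ⟨hz.1 e, hz.2 e⟩⟩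
  obtain ⟨f, c, hf, hc⟩ := geometric_hahn_banach_closed_point hC hK.isClosed hg
  set y : V → ℝ := fun v => f (Pi.single v 1) with hy
  have hfx : ∀ x : V → ℝ, f x = ∑ v, y v * x v := by
    intro x
    conv_lhs => rw [← Finset.univ_sum_single x]
    rw [map_sum]
    refine sum_congr rfl fun v _ => ?_
    have : (Pi.single v (x v) : V → ℝ) = x v • (Pi.single v 1 : V → ℝ) := by
      funext w; by_cases hw : w = v
      · subst hw; simp
      · simp [hw]
    rw [this, map_smul]; simp [hy, mul_comm]
  let z : E → ℝ := fun e => if 0 ≤ y (dst e) - y (src e) then u e else -u e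
  have hz : z ∈ B := by
    constructor <;> intro e <;> simp only [z] <;> split_ifs <;> linarith [hu e]
  have h1 := hf _ ⟨z, hz, rfl⟩
  rw [hfx] at h1 hc
  have h2 : ∑ v, y v * L z v = ∑ e, u e * |y (dst e) - y (src e)| := by
    change ∑ v, y v * dv src dst z v = _
    rw [sum_mul_dv]
    refine sum_congr rfl fun e _ => ?_
    simp only [z]; split_ifs with h'
    · rw [abs_of_nonneg h']
    · rw [abs_of_neg (not_le.1 h')]; ring
  have h3 := coarea src dst u g h y
  linarith

end Crest.Agent.N325.Fl
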