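import Crest.Agent.N325.Fl.Sharp

/-! Isolation lemma for bounded integral vectors, and leaves of a circulation-free arc set. -/

set_option autoImplicit false
open Finset

namespace Crest.Agent.N325.Fl

section iso
variable {E : Type*} [Fintype E] [DecidableEq E]

/-- `x` minimises `w x + r . x` over `F`. -/
def IsMin (F : Set (E → ℤ)) (w : (E → ℤ) → ℤ) (r : E → ℤ) (x : E → ℤ) : Prop :=
  x ∈ F ∧ ∀ x' ∈ F, w x + ∑ e, r e * x e ≤ w x' + ∑ e, r e * x' e

omit [DecidableEq E] in
theorem IsMin.mono {F : Set (E → ℤ)} {w : (E → ℤ) → ℤ} {r r' x x' : E → ℤ} {e0 : E}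
    (h : IsMin F w r x) (h' : IsMin F w r' x') (hoff : ∀ e, e ≠ e0 → r e = r' e)
    (hlt : r e0 < r' e0) : x' e0 ≤ x e0 := by
  have h1 := h.2 x' h'.1
  have h2 := h'.2 x h.1
  have key : ∀ y : E → ℤ, ∑ e, r' e * y e = ∑ e, r e * y e + (r' e0 - r e0) * y e0 := by
    intro y
    rw [← sub_eq_iff_eq_add', ← sum_sub_distrib, sum_eq_single e0]
    · ring
    · intro e _ he; rw [hoff e he]; ring
    · simp
  rw [key, key] at h2
  by_contra hc
  push Not at hc
  nlinarith

open Classical in
/-- isolation: few perturbations `r ∈ [0,K)^E` have two different minimisers. -/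
theorem isolation (F : Set (E → ℤ)) (w : (E → ℤ) → ℤ) (K U : ℕ)
    (hU : ∀ r : E → Fin K, ∀ x, IsMin F w (fun e => ((r e : ℕ) : ℤ)) x →
      ∀ e, 0 ≤ x e ∧ x e ≤ U) :
    #(univ.filter fun r : E → Fin K => ∃ x x', IsMin F w (fun e => ((r e : ℕ) : ℤ)) x ∧
      IsMin F w (fun e => ((r e : ℕ) : ℤ)) x' ∧ x ≠ x') ≤
      Fintype.card E * (U * K ^ (Fintype.card E - 1)) := by
  let bad : E → Finset (E → Fin K) := fun e => univ.filter fun r =>
    ∃ p : (E → ℤ) × (E → ℤ), IsMin F w (fun e => ((r e : ℕ) : ℤ)) p.1 ∧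
      IsMin F w (fun e => ((r e : ℕ) : ℤ)) p.2 ∧ p.1 e < p.2 e
  have hsub : (univ.filter fun r : E → Fin K => ∃ x x',
      IsMin F w (fun e => ((r e : ℕ) : ℤ)) x ∧ IsMin F w (fun e => ((r e : ℕ) : ℤ)) x' ∧ x ≠ x')
      ⊆ univ.biUnion bad := by
    intro r hr
    obtain ⟨x, x', h1, h2, h3⟩ := (mem_filter.1 hr).2
    obtain ⟨e, he⟩ := Function.ne_iff.1 h3
    refine mem_biUnion.2 ⟨e, mem_univ _, mem_filter.2 ⟨mem_univ _, ?_⟩⟩
    rcases lt_or_gt_of_ne he with h | h
    · exact ⟨(x, x'), h1, h2, h⟩
    · exact ⟨(x', x), h2, h1, h⟩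
  have hone : ∀ e, #(bad e) ≤ U * K ^ (Fintype.card E - 1) := by
    intro e
    let pr : (E → Fin K) → (E → ℤ) × (E → ℤ) := fun r =>
      if h : r ∈ bad e then (mem_filter.1 h).2.choose else (0, 0)
    have hpr : ∀ r ∈ bad e, IsMin F w (fun e => ((r e : ℕ) : ℤ)) (pr r).1 ∧
        IsMin F w (fun e => ((r e : ℕ) : ℤ)) (pr r).2 ∧ (pr r).1 e < (pr r).2 e := by
      intro r hr
      simp only [pr, dif_pos hr]
      exact (mem_filter.1 hr).2.choose_spec
    let φ : (E → Fin K) → ℤ × ({e' // e' ≠ e} → Fin K) := fun r => ((pr r).1 e, fun e' => r e')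
    have hc : #((Finset.Ico (0 : ℤ) U) ×ˢ (univ : Finset ({e' // e' ≠ e} → Fin K))) =
        U * K ^ (Fintype.card E - 1) := by
      simp [Fintype.card_subtype_compl]
    rw [← hc]
    refine card_le_card_of_injOn φ (fun r hr => ?_) (fun r hr r' hr' heq => ?_)
    · obtain ⟨h1, h2, h3⟩ := hpr r hr
      have a1 := (hU r _ h1 e).1
      have a2 := (hU r _ h2 e).2
      simp only [φ, coe_product, coe_Ico, coe_univ, Set.mem_prod, Set.mem_Ico, Set.mem_univ,
        and_true]
      exact ⟨a1, by omega⟩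
    · obtain ⟨h1, h2, h3⟩ := hpr r hr
      obtain ⟨h1', h2', h3'⟩ := hpr r' hr'
      simp only [φ, Prod.mk.injEq] at heq
      have hoff : ∀ e', e' ≠ e → r e' = r' e' := fun e' he' => congrFun heq.2 ⟨e', he'⟩
      funext e'
      by_cases he' : e' = e
      · subst he'
        rcases lt_trichotomy (r e') (r' e') with h | h | h
        · have := h1.mono h2' (e0 := e') (fun e2 h2 => by rw [hoff e2 h2]) (by exact_mod_cast h)
          omega
        · exact h
        · have := h1'.mono h2 (e0 := e') (fun e2 h2 => by rw [hoff e2 h2]) (by exact_mod_cast h)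
          omega
      · exact hoff e' he'
  refine (card_le_card hsub).trans (card_biUnion_le.trans ?_)
  simpa using sum_le_card_nsmul univ (fun e => #(bad e)) _ (fun e _ => hone e)

end iso

variable {V E : Type*} [Fintype V] [Fintype E] [DecidableEq V]

/-- an arc set carrying no nonzero circulation has a leaf in every nonempty subset. -/
theorem exists_leaf (src dst : E → V) (A : Finset E) (hne : A.Nonempty)
    (hA : ∀ d : E → ℝ, (∀ v, dv src dst d v = 0) → (∀ e, d e ≠ 0 → e ∈ A) → ∀ e, d e = 0) :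
    ∃ v, ∃ e ∈ A, src e ≠ dst e ∧ (src e = v ∨ dst e = v) ∧
      ∀ e' ∈ A, (src e' = v ∨ dst e' = v) → e' = e := by
  classical
  have hloop : ∀ e ∈ A, src e ≠ dst e := by
    intro e he h
    have := hA (fun e' => if e' = e then 1 else 0) (fun v => ?_)
      (fun e' h' => by by_cases h2 : e' = e <;> simp_all) e
    · simp at this
    · unfold dv
      rw [← sum_sub_distrib]
      refine sum_eq_zero fun e' _ => ?_
      by_cases h2 : e' = e
      · simp [h2, h]
      · simp [h2]
  by_contra hno
  push Not at hno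
  set W : Finset V := univ.filter fun v => ∃ e ∈ A, src e = v ∨ dst e = v with hW
  have hdeg : ∀ v ∈ W, 2 ≤ #(A.filter fun e => src e = v ∨ dst e = v) := by
    intro v hv
    obtain ⟨e, he, hev⟩ := (mem_filter.1 hv).2
    obtain ⟨e', he', hev', hne'⟩ := hno v e he (hloop e he) hev
    exact one_lt_card.2 ⟨e', mem_filter.2 ⟨he', hev'⟩, e, mem_filter.2 ⟨he, hev⟩, hne'⟩
  have hcount : #W ≤ #A := by
    have h1 : #W * 2 ≤ #A * 2 := by
      refine card_mul_le_card_mul (fun v e => src e = v ∨ dst e = v) (fun v hv => ?_)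
        (fun e _ => ?_)
      · exact hdeg v hv
      · refine (card_le_card (t := {src e, dst e}) ?_).trans card_le_two
        intro v hv
        have := (mem_filter.1 hv).2
        rcases this with h | h <;> simp [h]
    omega
  obtain ⟨e0, he0⟩ := hne
  have hw0 : src e0 ∈ W := mem_filter.2 ⟨mem_univ _, e0, he0, Or.inl rfl⟩
  let ex : (A → ℝ) → E → ℝ := fun d e => if h : e ∈ A then d ⟨e, h⟩ else 0
  let L : ((A → ℝ) × ℝ) →ₗ[ℝ] (W → ℝ) :=
    { toFun := fun p v => dv src dst (ex p.1) v + if (v : V) = src e0 then p.2 else 0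
      map_add' := fun p q => funext fun v => by
        have : ex (p + q).1 = fun e => ex p.1 e + ex q.1 e := by
          funext e; simp only [ex]; split_ifs <;> simp
        simp only [this, dv_add, Pi.add_apply, Prod.snd_add]
        split_ifs <;> ring
      map_smul' := fun a p => funext fun v => by
        have : ex (a • p).1 = fun e => a * ex p.1 e := by
          funext e; simp only [ex]; split_ifs <;> simp
        simp only [this, dv_smul, Pi.smul_apply, Prod.smul_snd, RingHom.id_apply, smul_eq_mul]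
        split_ifs <;> ring }
  have hinj : Function.Injective L := by
    rw [injective_iff_map_eq_zero]
    intro p hp
    have hout : ∀ v, v ∉ W → dv src dst (ex p.1) v = 0 := by
      intro v hv
      unfold dv
      rw [← sum_sub_distrib]
      refine sum_eq_zero fun e _ => ?_
      by_cases he : e ∈ A
      · have h1 : src e ≠ v := fun h => hv (mem_filter.2 ⟨mem_univ _, e, he, Or.inl h⟩)
        have h2 : dst e ≠ v := fun h => hv (mem_filter.2 ⟨mem_univ _, e, he, Or.inr h⟩)
        simp [h1, h2]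
      · simp [ex, he]
    have hall : ∀ v, dv src dst (ex p.1) v + (if v = src e0 then p.2 else 0) = 0 := by
      intro v
      by_cases hv : v ∈ W
      · exact congrFun hp ⟨v, hv⟩
      · rw [hout v hv, if_neg (fun h : v = src e0 => hv (by rw [h]; exact hw0))]; simp
    have h2 : p.2 = 0 := by
      have := sum_eq_zero (s := univ) fun v _ => hall v
      rw [sum_add_distrib, sum_dv] at this
      simpa using this
    have h3 := hA (ex p.1) (fun v => by simpa [h2] using hall v)
      (fun e he => by by_contra h; simp [ex, h] at he)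
    refine Prod.ext (funext fun e => ?_) h2
    have := h3 e
    simpa [ex, e.2] using this
  have := LinearMap.finrank_le_finrank_of_injective hinj
  simp at this
  omega

theorem Uniq.leaf {src dst : E → V} {c xs : E → ℤ} (h : Uniq src dst c xs) (A : Finset E)
    (hne : A.Nonempty) (hA : ∀ e ∈ A, xs e ≠ 0) :
    ∃ v, ∃ e ∈ A, src e ≠ dst e ∧ (src e = v ∨ dst e = v) ∧
      ∀ e' ∈ A, (src e' = v ∨ dst e' = v) → e' = e :=
  exists_leaf src dst A hne fun d hd hs => h.circ_zero d hd fun e he => hA e (hs e he)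

end Crest.Agent.N325.Fl
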