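import Crest.Agent.N325.Fl.Iso

/-! Random perturbation of the costs: a unique optimum, optimal for the original costs. -/

set_option autoImplicit false
open Finset

namespace Crest.Agent.N325.Fl

variable {V E : Type*} [Fintype V] [Fintype E] [DecidableEq V]

/-- integral nonnegative flows with demands `b`. -/
def Feas (src dst : E → V) (b : V → ℤ) : Set (E → ℤ) :=
  {x | (∀ e, 0 ≤ x e) ∧ ∀ v, dv src dst x v = b v}

/-- `x` is a cheapest integral flow. -/
def Opt (src dst : E → V) (c : E → ℤ) (b : V → ℤ) (x : E → ℤ) : Prop :=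
  x ∈ Feas src dst b ∧ ∀ x' ∈ Feas src dst b, ∑ e, c e * x e ≤ ∑ e, c e * x' e

omit [Fintype V] in
theorem exists_opt (src dst : E → V) (c : E → ℤ) (hc : ∀ e, 0 ≤ c e) (b : V → ℤ) {x1 : E → ℤ}
    (h1 : x1 ∈ Feas src dst b) : ∃ x, Opt src dst c b x := by
  classical
  have hex : ∃ k : ℕ, ∃ x ∈ Feas src dst b, ∑ e, c e * x e = k :=
    ⟨(∑ e, c e * x1 e).toNat, x1, h1,
      (Int.toNat_of_nonneg (sum_nonneg fun e _ => mul_nonneg (hc e) (h1.1 e))).symm⟩
  obtain ⟨x, hx, hk⟩ := Nat.find_spec hex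
  refine ⟨x, hx, fun x' hx' => ?_⟩
  have h0 : 0 ≤ ∑ e, c e * x' e := sum_nonneg fun e _ => mul_nonneg (hc e) (hx'.1 e)
  have := Nat.find_min' hex (m := (∑ e, c e * x' e).toNat) ⟨x', hx', (Int.toNat_of_nonneg h0).symm⟩
  omega

omit [Fintype V] [DecidableEq V] in
theorem le_cost {c x : E → ℤ} (hc : ∀ e, 1 ≤ c e) (hx : ∀ e, 0 ≤ x e) :
    ∑ e, x e ≤ ∑ e, c e * x e :=
  sum_le_sum fun e _ => by have := hc e; have := hx e; nlinarith

omit [Fintype V] in
/-- an optimum for `N c + r` is an optimum for `c`. -/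
theorem Opt.of_pert {src dst : E → V} {c r x x1 : E → ℤ} {b : V → ℤ} {K C N : ℤ}
    (hc : ∀ e, 1 ≤ c e) (hr : ∀ e, 0 ≤ r e ∧ r e ≤ K) (hK : 0 ≤ K) (h1 : x1 ∈ Feas src dst b)
    (hC : ∑ e, c e * x1 e ≤ C) (hN : K * C < N)
    (h : Opt src dst (fun e => N * c e + r e) b x) : Opt src dst c b x := by
  obtain ⟨x0, h0⟩ := exists_opt src dst c (fun e => by linarith [hc e]) b h1
  refine ⟨h.1, fun x' hx' => le_trans ?_ (h0.2 x' hx')⟩
  have a1 := h.2 x0 h0.1
  simp only [add_mul, sum_add_distrib, mul_assoc, ← mul_sum] at a1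
  have a2 : 0 ≤ ∑ e, r e * x e := sum_nonneg fun e _ => mul_nonneg (hr e).1 (h.1.1 e)
  have a3 : ∑ e, r e * x0 e ≤ K * ∑ e, x0 e := by
    rw [mul_sum]; exact sum_le_sum fun e _ => mul_le_mul_of_nonneg_right (hr e).2 (h0.1.1 e)
  have a4 := le_cost hc h0.1.1
  have a5 := h0.2 x1 h1
  have a6 : K * ∑ e, x0 e ≤ K * C := mul_le_mul_of_nonneg_left (by linarith) hK
  have a7 : 0 ≤ ∑ e, x0 e := sum_nonneg fun e _ => h0.1.1 e
  have a8 : 0 ≤ K * C := mul_nonneg hK (by linarith)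
  by_contra hlt
  have : ∑ e, c e * x0 e + 1 ≤ ∑ e, c e * x e := by omega
  nlinarith

omit [Fintype V] in
theorem Opt.sum_le {src dst : E → V} {c x x1 : E → ℤ} {b : V → ℤ} (hc : ∀ e, 1 ≤ c e)
    (h : Opt src dst c b x) (h1 : x1 ∈ Feas src dst b) : ∑ e, x e ≤ ∑ e, c e * x1 e :=
  (le_cost hc h.1.1).trans (h.2 x1 h1)

/-- the good perturbations. -/
def GoodR (src dst : E → V) (c : E → ℤ) (b : V → ℤ) (N : ℤ) (r : E → ℤ) : Prop :=
  ∃ xs, Uniq src dst (fun e => N * c e + r e) xs ∧ Opt src dst c b xs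

omit [Fintype V] in
open Classical in
/-- **isolation for flows**. -/
theorem card_not_goodR (src dst : E → V) (c : E → ℤ) (hc : ∀ e, 1 ≤ c e) (b : V → ℤ)
    {x1 : E → ℤ} (h1 : x1 ∈ Feas src dst b) (K C : ℕ) (hC : ∑ e, c e * x1 e ≤ C) (N : ℤ)
    (hN : (K : ℤ) * C < N) :
    #(univ.filter fun r : E → Fin K => ¬GoodR src dst c b N fun e => ((r e : ℕ) : ℤ)) ≤
      Fintype.card E * (C * K ^ (Fintype.card E - 1)) := by
  have hiff : ∀ (r x : E → ℤ), IsMin (Feas src dst b) (fun x => N * ∑ e, c e * x e) r x ↔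
      Opt src dst (fun e => N * c e + r e) b x := by
    intro r x
    simp only [IsMin, Opt, add_mul, sum_add_distrib, mul_assoc, ← mul_sum]
  have hr : ∀ (r : E → Fin K) e, 0 ≤ ((r e : ℕ) : ℤ) ∧ ((r e : ℕ) : ℤ) ≤ K := fun r e =>
    ⟨by positivity, by exact_mod_cast (r e).2.le⟩
  have hN0 : 0 ≤ N := le_trans (by positivity) hN.le
  have hopt : ∀ (r : E → Fin K) x, Opt src dst (fun e => N * c e + ((r e : ℕ) : ℤ)) b x →
      Opt src dst c b x := fun r x h => h.of_pert hc (hr r) (by positivity) h1 hC hN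
  refine le_trans (card_le_card fun r hr' => ?_)
    (isolation (Feas src dst b) (fun x => N * ∑ e, c e * x e) K C fun r x hx e => ?_)
  · simp only [mem_filter, mem_univ, true_and, hiff] at hr' ⊢
    by_contra hno
    obtain ⟨x, hx⟩ := exists_opt src dst (fun e => N * c e + ((r e : ℕ) : ℤ))
      (fun e => add_nonneg (mul_nonneg hN0 (by linarith [hc e])) (hr r e).1) b h1
    refine hr' ⟨x, ⟨hx.1.1, fun x' h0 hd hne => ?_⟩, hopt r x hx⟩
    have hf : x' ∈ Feas src dst b := ⟨h0, fun v => (hd v).trans (hx.1.2 v)⟩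
    refine lt_of_le_of_ne (hx.2 x' hf) fun heq => hno ⟨x', x, ⟨hf, fun y hy => ?_⟩, hx, hne⟩
    rw [← heq]; exact hx.2 y hy
  · have h2 := hopt r x ((hiff _ _).1 hx)
    exact ⟨h2.1.1 e, (single_le_sum (fun e _ => h2.1.1 e) (mem_univ e)).trans
      ((h2.sum_le hc h1).trans hC)⟩

end Crest.Agent.N325.Fl
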