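import Crest.Agent.N325.Fl.Pert

/-! Networks numbered by naturals; reduction of capacities and penalties to a transshipment
problem with costs `≥ 1` and a strictly positive feasible point. -/

set_option autoImplicit false
open Finset

namespace Crest.Agent.N325.Fl

/-- an end map into `Fin (N+1)` (clamped). -/
def cl (N m : ℕ) (s : ℕ → ℕ) : Fin m → Fin (N + 1) := fun e => ⟨min (s e) N, by omega⟩

/-- net inflow, numbered version. -/
def dvN {R : Type*} [AddCommGroup R] (m : ℕ) (s d : ℕ → ℕ) (x : ℕ → R) (v : ℕ) : R :=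
  (∑ e ∈ range m, if d e = v then x e else 0) - ∑ e ∈ range m, if s e = v then x e else 0

/-- extension by zero. -/
def ex0 {R : Type*} [Zero R] {m : ℕ} (x : Fin m → R) (e : ℕ) : R :=
  if h : e < m then x ⟨e, h⟩ else 0

@[simp] theorem ex0_val {R : Type*} [Zero R] {m : ℕ} (x : Fin m → R) (e : Fin m) :
    ex0 x e = x e := dif_pos e.2

theorem dv_cl {R : Type*} [AddCommGroup R] {N m : ℕ} {s d : ℕ → ℕ} (hs : ∀ e < m, s e ≤ N)
    (hd : ∀ e < m, d e ≤ N) (x : ℕ → R) (v : Fin (N + 1)) :
    dv (cl N m s) (cl N m d) (fun e => x e) v = dvN m s d x v := by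
  have h : ∀ p : ℕ → ℕ, (∀ e < m, p e ≤ N) → (∑ e : Fin m, if cl N m p e = v then x e else 0) =
      ∑ e ∈ range m, if p e = v then x e else 0 := by
    intro p hp
    rw [← Fin.sum_univ_eq_sum_range (fun e => if p e = v then x e else 0)]
    refine sum_congr rfl fun e _ => ?_
    simp only [cl, Fin.ext_iff, min_eq_left (hp e e.2)]
  unfold dv dvN
  rw [h s hs, h d hd]

theorem sum_dvN {R : Type*} [AddCommGroup R] {n m : ℕ} {s d : ℕ → ℕ} (hs : ∀ e < m, s e < n)
    (hd : ∀ e < m, d e < n) (x : ℕ → R) : ∑ v ∈ range n, dvN m s d x v = 0 := by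
  have h : ∀ p : ℕ → ℕ, (∀ e < m, p e < n) →
      (∑ v ∈ range n, ∑ e ∈ range m, if p e = v then x e else 0) = ∑ e ∈ range m, x e := by
    intro p hp
    rw [sum_comm]
    refine sum_congr rfl fun e he => ?_
    rw [sum_ite_eq, if_pos (mem_range.2 (hp e (mem_range.1 he)))]
  unfold dvN
  rw [sum_sub_distrib, h s hs, h d hd, sub_self]

/-- a capacitated instance with a penalty `M` for unmet demands. -/
structure Cap where
  n : ℕ
  m : ℕ
  s : ℕ → ℕ
  d : ℕ → ℕ
  k : ℕ → ℤ
  c : ℕ → ℤ
  b : ℕ → ℤ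
  M : ℤ

namespace Cap

variable (I : Cap)

structure WF : Prop where
  hs : ∀ e < I.m, I.s e < I.n
  hd : ∀ e < I.m, I.d e < I.n
  hk : ∀ e < I.m, 1 ≤ I.k e
  hc : ∀ e < I.m, 0 ≤ I.c e
  hM : 1 ≤ I.M

def Box (x : ℕ → ℤ) : Prop := ∀ e < I.m, 0 ≤ x e ∧ x e ≤ I.k e

def obj (x : ℕ → ℤ) : ℤ :=
  ∑ e ∈ range I.m, I.c e * x e + I.M * ∑ v ∈ range I.n, |I.b v - dvN I.m I.s I.d x v|

/-- **the specification of a solver**. -/
def Best (x : ℕ → ℤ) : Prop := I.Box x ∧ ∀ x', I.Box x' → I.obj x ≤ I.obj x'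

/-- the star (largest vertex of the new network). -/
def N : ℕ := I.n + I.m
def m' : ℕ := I.m + I.m + I.n + I.n
def s' (e : ℕ) : ℕ := if e < I.m then I.s e else if e < I.m + I.m then I.d (e - I.m)
  else if e < I.m + I.m + I.n then I.n + I.m else e - (I.m + I.m + I.n)
def d' (e : ℕ) : ℕ := if e < I.m then I.n + e else if e < I.m + I.m then I.n + (e - I.m)
  else if e < I.m + I.m + I.n then e - (I.m + I.m) else I.n + I.m
def c' (e : ℕ) : ℤ := if e < I.m then I.c e + 1 else if e < I.m + I.m then 1 else I.M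
def b' (v : ℕ) : ℤ := if v < I.n then I.b v - ∑ e ∈ range I.m, if I.d e = v then I.k e else 0
  else if v < I.n + I.m then I.k (v - I.n) else -∑ v ∈ range I.n, I.b v

variable {I}

theorem WF.s'_le (h : I.WF) (e : ℕ) (he : e < I.m') : I.s' e ≤ I.N := by
  unfold s' N; unfold m' at he
  split_ifs with h1 h2 h3
  · have := h.hs e h1; omega
  · have := h.hd (e - I.m) (by omega); omega
  all_goals omega

theorem d'_le (e : ℕ) (he : e < I.m') : I.d' e ≤ I.N := by
  unfold d' N; rw [m'] at he
  split_ifs <;> omega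

theorem WF.one_le_c' (h : I.WF) (e : ℕ) : 1 ≤ I.c' e := by
  unfold c'
  split_ifs with h1 h2
  · have := h.hc e h1; omega
  · rfl
  · exact h.hM

theorem sum_m' {R : Type*} [AddCommMonoid R] (f : ℕ → R) : ∑ e ∈ range I.m', f e =
    ∑ e ∈ range I.m, f e + ∑ e ∈ range I.m, f (I.m + e) + ∑ v ∈ range I.n, f (I.m + I.m + v) +
      ∑ v ∈ range I.n, f (I.m + I.m + I.n + v) := by
  unfold m'; rw [sum_range_add, sum_range_add, sum_range_add]

section
variable {R : Type*} [AddCommGroup R] (x : ℕ → R)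

theorem dvN' (v : ℕ) : dvN I.m' I.s' I.d' x v =
    (∑ e ∈ range I.m, if I.n + e = v then x e + x (I.m + e) else 0) -
    (∑ e ∈ range I.m, if I.s e = v then x e else 0) -
    (∑ e ∈ range I.m, if I.d e = v then x (I.m + e) else 0) +
    ((∑ u ∈ range I.n, if u = v then x (I.m + I.m + u) - x (I.m + I.m + I.n + u) else 0) -
      ∑ u ∈ range I.n, if I.n + I.m = v then x (I.m + I.m + u) - x (I.m + I.m + I.n + u) else 0) := by
  unfold dvN
  have a1 : ∀ e ∈ range I.m, I.s' e = I.s e ∧ I.d' e = I.n + e ∧ I.s' (I.m + e) = I.d e ∧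
      I.d' (I.m + e) = I.n + e := by
    intro e he
    have := mem_range.1 he
    simp [s', d', this]
  have a2 : ∀ u ∈ range I.n, I.s' (I.m + I.m + u) = I.n + I.m ∧ I.d' (I.m + I.m + u) = u ∧
      I.s' (I.m + I.m + I.n + u) = u ∧ I.d' (I.m + I.m + I.n + u) = I.n + I.m := by
    intro u hu
    have := mem_range.1 hu
    unfold s' d'
    refine ⟨?_, ?_, ?_, ?_⟩ <;> split_ifs <;> omega
  rw [← sum_sub_distrib, sum_m', ← sum_add_distrib, add_assoc, ← sum_add_distrib]
  simp only [← sum_sub_distrib]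
  congr 1
  · refine sum_congr rfl fun e he => ?_
    obtain ⟨h1, h2, h3, h4⟩ := a1 e he
    rw [h1, h2, h3, h4]
    split_ifs <;> abel
  · refine sum_congr rfl fun e he => ?_
    obtain ⟨h1, h2, h3, h4⟩ := a2 e he
    rw [h1, h2, h3, h4]
    split_ifs <;> abel

theorem dvN'_orig {v : ℕ} (hv : v < I.n) : dvN I.m' I.s' I.d' x v =
    x (I.m + I.m + v) - x (I.m + I.m + I.n + v) - (∑ e ∈ range I.m, if I.s e = v then x e else 0) -
      ∑ e ∈ range I.m, if I.d e = v then x (I.m + e) else 0 := by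
  rw [dvN', sum_eq_zero fun e _ => if_neg (by omega), sum_ite_eq', if_pos (mem_range.2 hv),
    sum_eq_zero (s := range I.n) fun e _ => if_neg (by omega)]
  abel

theorem WF.dvN'_mid (h : I.WF) {e : ℕ} (he : e < I.m) :
    dvN I.m' I.s' I.d' x (I.n + e) = x e + x (I.m + e) := by
  rw [dvN', sum_eq_zero (f := fun e' => if I.s e' = I.n + e then x e' else 0) fun e' he' =>
      if_neg (by have := h.hs e' (mem_range.1 he'); omega),
    sum_eq_zero (f := fun e' => if I.d e' = I.n + e then x (I.m + e') else 0) fun e' he' =>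
      if_neg (by have := h.hd e' (mem_range.1 he'); omega),
    sum_eq_zero (s := range I.n) fun e' he' => if_neg (by have := mem_range.1 he'; omega),
    sum_eq_zero (s := range I.n) fun e' he' => if_neg (by omega)]
  simp only [add_right_inj, sum_ite_eq', if_pos (mem_range.2 he)]
  abel

theorem WF.dvN'_star (h : I.WF) : dvN I.m' I.s' I.d' x (I.n + I.m) =
    -∑ u ∈ range I.n, (x (I.m + I.m + u) - x (I.m + I.m + I.n + u)) := by
  rw [dvN', sum_eq_zero (f := fun e' => if I.s e' = I.n + I.m then x e' else 0) fun e' he' =>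
      if_neg (by have := h.hs e' (mem_range.1 he'); omega),
    sum_eq_zero (f := fun e' => if I.d e' = I.n + I.m then x (I.m + e') else 0) fun e' he' =>
      if_neg (by have := h.hd e' (mem_range.1 he'); omega),
    sum_eq_zero (s := range I.n) fun e' he' => if_neg (by have := mem_range.1 he'; omega),
    sum_eq_zero (s := range I.m) fun e' he' => if_neg (by have := mem_range.1 he'; omega)]
  simp

end

section lift
variable {R : Type*} [CommRing R] [LinearOrder R] [IsStrictOrderedRing R]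

/-- the flow of the new network built from `x`, with `t` extra units on the star arcs. -/
def lift (I : Cap) (x : ℕ → R) (t : R) (e : ℕ) : R :=
  if e < I.m then x e else if e < I.m + I.m then I.k (e - I.m) - x (e - I.m)
  else if e < I.m + I.m + I.n then
    t + max (I.b (e - (I.m + I.m)) - dvN I.m I.s I.d x (e - (I.m + I.m))) 0
  else t + max (dvN I.m I.s I.d x (e - (I.m + I.m + I.n)) - I.b (e - (I.m + I.m + I.n))) 0

omit [IsStrictOrderedRing R] in
theorem lift_1 (x : ℕ → R) (t : R) {e : ℕ} (he : e < I.m) : I.lift x t e = x e := if_pos he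
omit [IsStrictOrderedRing R] in
theorem lift_2 (x : ℕ → R) (t : R) {e : ℕ} (he : e < I.m) :
    I.lift x t (I.m + e) = I.k e - x e := by simp [lift, he]
omit [IsStrictOrderedRing R] in
theorem lift_3 (x : ℕ → R) (t : R) {v : ℕ} (hv : v < I.n) :
    I.lift x t (I.m + I.m + v) = t + max (I.b v - dvN I.m I.s I.d x v) 0 := by
  unfold lift
  rw [if_neg (by omega), if_neg (by omega), if_pos (by omega), Nat.add_sub_cancel_left]
omit [IsStrictOrderedRing R] in
theorem lift_4 (x : ℕ → R) (t : R) (v : ℕ) :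
    I.lift x t (I.m + I.m + I.n + v) = t + max (dvN I.m I.s I.d x v - I.b v) 0 := by
  unfold lift
  rw [if_neg (by omega), if_neg (by omega), if_neg (by omega), Nat.add_sub_cancel_left]

theorem max_sub_max (a b : R) : max (a - b) 0 - max (b - a) 0 = a - b := by
  rcases le_total a b with h | h
  · rw [max_eq_right (by linarith), max_eq_left (by linarith)]; ring
  · rw [max_eq_left (by linarith), max_eq_right (by linarith)]; ring

theorem max_add_max (a b : R) : max (a - b) 0 + max (b - a) 0 = |a - b| := by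
  rcases le_total a b with h | h
  · rw [max_eq_right (by linarith), max_eq_left (by linarith), abs_of_nonpos (by linarith)]; ring
  · rw [max_eq_left (by linarith), max_eq_right (by linarith), abs_of_nonneg (by linarith)]; ring

theorem WF.dvN_lift (h : I.WF) (x : ℕ → R) (t : R) {v : ℕ} (hv : v ≤ I.N) :
    dvN I.m' I.s' I.d' (I.lift x t) v = I.b' v := by
  unfold N at hv
  unfold b'
  split_ifs with h1 h2
  · rw [dvN'_orig _ h1, lift_3 _ _ h1, lift_4, add_sub_add_left_eq_sub, max_sub_max,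
      sum_congr rfl fun e he => by rw [lift_1 _ _ (mem_range.1 he)],
      sum_congr (f := fun e => if I.d e = v then I.lift x t (I.m + e) else 0)
        (g := fun e => (if I.d e = v then (I.k e : R) else 0) - if I.d e = v then x e else 0) rfl
        fun e he => by rw [lift_2 _ _ (mem_range.1 he)]; split_ifs <;> simp,
      sum_sub_distrib]
    unfold dvN
    push_cast
    ring
  · obtain ⟨e, rfl⟩ : ∃ e, v = I.n + e := ⟨v - I.n, by omega⟩
    have he : e < I.m := by omega
    rw [h.dvN'_mid _ he, lift_1 _ _ he, lift_2 _ _ he, Nat.add_sub_cancel_left]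
    ring
  · rw [show v = I.n + I.m by omega, h.dvN'_star,
      sum_congr rfl fun u hu => by
        rw [lift_3 _ _ (mem_range.1 hu), lift_4, add_sub_add_left_eq_sub, max_sub_max],
      sum_sub_distrib, sum_dvN h.hs h.hd]
    push_cast
    ring

theorem cost_lift (x : ℕ → R) (t : R) : ∑ e ∈ range I.m', (I.c' e : R) * I.lift x t e =
    ∑ e ∈ range I.m, (I.c e : R) * x e + ∑ e ∈ range I.m, (I.k e : R) +
      I.M * (∑ v ∈ range I.n, |(I.b v : R) - dvN I.m I.s I.d x v| + I.n * (2 * t)) := by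
  rw [sum_m', add_assoc, ← sum_add_distrib, ← sum_add_distrib, ← sum_add_distrib]
  congr 1
  · refine sum_congr rfl fun e he => ?_
    have he := mem_range.1 he
    rw [lift_1 _ _ he, lift_2 _ _ he]
    simp only [c', he, if_true, add_lt_iff_neg_left, not_lt_zero, if_false, add_lt_add_iff_left]
    push_cast
    ring
  · rw [sum_congr (g := fun v => (I.M : R) * (|(I.b v : R) - dvN I.m I.s I.d x v| + 2 * t)) rfl
      fun v hv => ?_, ← mul_sum, sum_add_distrib]
    · simp
    · rw [lift_3 _ _ (mem_range.1 hv), lift_4, ← max_add_max]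
      unfold c'
      rw [if_neg (by omega), if_neg (by omega), if_neg (by omega), if_neg (by omega)]
      ring

end lift

/-- the new network. -/
abbrev src (I : Cap) : Fin I.m' → Fin (I.N + 1) := cl I.N I.m' I.s'
abbrev dst (I : Cap) : Fin I.m' → Fin (I.N + 1) := cl I.N I.m' I.d'

theorem WF.lift_feas (h : I.WF) {x : ℕ → ℤ} (hx : I.Box x) :
    (fun e : Fin I.m' => I.lift x 0 e) ∈ Feas I.src I.dst fun v => I.b' v := by
  refine ⟨fun e => ?_, fun v => ?_⟩
  · show 0 ≤ I.lift x 0 e
    unfold lift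
    split_ifs with h1 h2 h3
    · exact (hx _ h1).1
    · have := (hx (e - I.m) (by omega)).2; simpa using this
    all_goals simp
  · rw [dv_cl h.s'_le d'_le, h.dvN_lift _ _ (Nat.lt_succ_iff.1 v.2)]; simp

theorem cost_lift_int (x : ℕ → ℤ) :
    ∑ e : Fin I.m', I.c' e * I.lift x 0 e = I.obj x + ∑ e ∈ range I.m, I.k e := by
  have := cost_lift (I := I) x 0
  rw [Fin.sum_univ_eq_sum_range (fun e => I.c' e * I.lift x 0 e)]
  simp only [Int.cast_id] at this
  rw [this]; unfold obj; ring

/-- **an optimum of the new network, restricted to the first `m` arcs, solves the instance.** -/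
theorem WF.best (h : I.WF) {xs : Fin I.m' → ℤ}
    (ho : Opt I.src I.dst (fun e => I.c' e) (fun v => I.b' v) xs) : I.Best (ex0 xs) := by
  set x := ex0 xs with hx
  have h0 : ∀ e, 0 ≤ x e := fun e => by
    simp only [hx, ex0]; split_ifs; exacts [ho.1.1 _, le_rfl]
  have hd : ∀ v ≤ I.N, dvN I.m' I.s' I.d' x v = I.b' v := fun v hv => by
    have : _ = I.b' v := ho.1.2 ⟨v, Nat.lt_succ_iff.2 hv⟩
    rw [← this, ← dv_cl h.s'_le d'_le x ⟨v, Nat.lt_succ_iff.2 hv⟩]
    simp only [hx, ex0_val]
  have hm : ∀ e < I.m, x (I.m + e) = I.k e - x e := fun e he => by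
    have := hd (I.n + e) (by unfold N; omega)
    rw [h.dvN'_mid _ he] at this
    unfold b' at this
    rw [if_neg (by omega), if_pos (by omega), Nat.add_sub_cancel_left] at this
    linarith
  have hv : ∀ v < I.n, x (I.m + I.m + v) - x (I.m + I.m + I.n + v) =
      I.b v - dvN I.m I.s I.d x v := fun v hv => by
    have := hd v (by unfold N; omega)
    rw [dvN'_orig _ hv, sum_congr (f := fun e => if I.d e = v then x (I.m + e) else 0)
        (g := fun e => (if I.d e = v then I.k e else 0) - if I.d e = v then x e else 0) rfl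
        fun e he => by rw [hm e (mem_range.1 he)]; split_ifs <;> simp, sum_sub_distrib] at this
    unfold b' at this
    rw [if_pos hv] at this
    unfold dvN
    linarith
  refine ⟨fun e he => ⟨h0 e, by have := hm e he; have := h0 (I.m + e); linarith⟩, fun x' hx' => ?_⟩
  have h1 := ho.2 _ (h.lift_feas hx')
  rw [cost_lift_int] at h1
  have h2 : ∑ e : Fin I.m', I.c' e * xs e = ∑ e ∈ range I.m', I.c' e * x e := by
    rw [← Fin.sum_univ_eq_sum_range (fun e => I.c' e * x e)]
    simp only [hx, ex0_val]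
  have h3 : I.obj x + ∑ e ∈ range I.m, I.k e ≤ ∑ e ∈ range I.m', I.c' e * x e := by
    rw [sum_m', add_assoc, ← sum_add_distrib, ← sum_add_distrib]
    unfold obj
    rw [add_right_comm, ← sum_add_distrib, mul_sum]
    refine add_le_add (le_of_eq (sum_congr rfl fun e he => ?_)) (sum_le_sum fun v hv' => ?_)
    · have he := mem_range.1 he
      rw [hm e he]
      simp only [c', he, if_true, add_lt_iff_neg_left, not_lt_zero, if_false, add_lt_add_iff_left]
      ring
    · unfold c'
      rw [if_neg (by omega), if_neg (by omega), if_neg (by omega), if_neg (by omega), ← mul_add,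
        ← hv v (mem_range.1 hv')]
      refine mul_le_mul_of_nonneg_left ?_ (by linarith [h.hM])
      have := h0 (I.m + I.m + v); have := h0 (I.m + I.m + I.n + v)
      rw [abs_le]; constructor <;> linarith
  linarith

/-- a bound on the cost of the two starting points. -/
def C0 (I : Cap) : ℤ := ∑ e ∈ range I.m, (I.c e + 1) * I.k e +
  I.M * (∑ v ∈ range I.n, |I.b v| + ∑ e ∈ range I.m, I.k e + I.n)

theorem WF.exists_feas (h : I.WF) : ∃ x1 ∈ Feas I.src I.dst fun v => I.b' v,
    ∑ e : Fin I.m', I.c' e * x1 e ≤ I.C0 := by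
  refine ⟨_, h.lift_feas (x := fun _ => 0) fun e he => ⟨le_rfl, by linarith [h.hk e he]⟩, ?_⟩
  rw [cost_lift_int]
  unfold obj C0 dvN
  have a1 : ∑ e ∈ range I.m, I.k e ≤ ∑ e ∈ range I.m, (I.c e + 1) * I.k e :=
    sum_le_sum fun e he => by
      have := h.hc e (mem_range.1 he); have := h.hk e (mem_range.1 he); nlinarith
  have a2 : 0 ≤ ∑ e ∈ range I.m, I.k e :=
    sum_nonneg fun e he => by linarith [h.hk e (mem_range.1 he)]
  have a3 := h.hM
  have a4 : 0 ≤ I.M * (∑ e ∈ range I.m, I.k e + I.n) := by positivity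
  simp only [mul_zero, sum_const_zero, ite_self, sub_zero]
  linarith

theorem sum_abs_dvN_le {n m : ℕ} {s d : ℕ → ℕ} {x : ℕ → ℝ} (hx : ∀ e < m, 0 ≤ x e) :
    ∑ v ∈ range n, |dvN m s d x v| ≤ 2 * ∑ e ∈ range m, x e := by
  have h : ∀ p : ℕ → ℕ, (∑ v ∈ range n, |∑ e ∈ range m, if p e = v then x e else 0|) ≤
      ∑ e ∈ range m, x e := by
    intro p
    rw [sum_congr rfl fun v _ => abs_of_nonneg (sum_nonneg fun e he => by
      split_ifs; exacts [hx e (mem_range.1 he), le_rfl]), sum_comm]
    refine sum_le_sum fun e he => ?_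
    rw [sum_ite_eq]; split_ifs; exacts [le_rfl, hx e (mem_range.1 he)]
  refine (sum_le_sum fun v _ => abs_sub _ _).trans ?_
  rw [sum_add_distrib]
  linarith [h s, h d]

/-- a strictly positive feasible point. -/
theorem WF.exists_interior (h : I.WF) : ∃ x0 : Fin I.m' → ℝ, (∀ e, 1 / 2 ≤ x0 e) ∧
    (∀ v, dv I.src I.dst x0 v = (I.b' v : ℤ)) ∧ ∑ e : Fin I.m', (I.c' e : ℝ) * x0 e ≤ I.C0 := by
  have hk : ∀ e < I.m, (1 : ℝ) ≤ I.k e := fun e he => by exact_mod_cast h.hk e he
  refine ⟨fun e => I.lift (fun e => (I.k e : ℝ) / 2) (1 / 2) e, fun e => ?_, fun v => ?_, ?_⟩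
  · simp only [lift]
    split_ifs with h1 h2 h3
    · linarith [hk _ h1]
    · linarith [hk (e - I.m) (by omega)]
    all_goals simp
  · rw [dv_cl h.s'_le d'_le, h.dvN_lift _ _ (Nat.lt_succ_iff.1 v.2)]
  · rw [Fin.sum_univ_eq_sum_range
      (fun e => (I.c' e : ℝ) * I.lift (fun e => (I.k e : ℝ) / 2) (1 / 2) e), cost_lift]
    unfold C0
    push_cast
    have a1 : ∑ e ∈ range I.m, (I.c e : ℝ) * (I.k e / 2) + ∑ e ∈ range I.m, (I.k e : ℝ) ≤
        ∑ e ∈ range I.m, ((I.c e : ℝ) + 1) * I.k e := by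
      rw [← sum_add_distrib]
      refine sum_le_sum fun e he => ?_
      have : (0 : ℝ) ≤ I.c e := by exact_mod_cast h.hc e (mem_range.1 he)
      have := hk e (mem_range.1 he)
      nlinarith
    have a2 := sum_abs_dvN_le (n := I.n) (m := I.m) (s := I.s) (d := I.d)
      (x := fun e => (I.k e : ℝ) / 2) fun e he => by linarith [hk e he]
    rw [← sum_div] at a2
    have a3 : ∑ v ∈ range I.n, |(I.b v : ℝ) - dvN I.m I.s I.d (fun e => (I.k e : ℝ) / 2) v| ≤
        ∑ v ∈ range I.n, |(I.b v : ℝ)| + ∑ e ∈ range I.m, (I.k e : ℝ) := by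
      refine (sum_le_sum fun v _ => abs_sub _ _).trans ?_
      rw [sum_add_distrib]; linarith
    have a4 : (0 : ℝ) ≤ I.M := by have := h.hM; positivity
    have := mul_le_mul_of_nonneg_left a3 a4
    nlinarith

end Cap

end Crest.Agent.N325.Fl
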