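import Crest.Agent.N325.Fl.Gale

/-! Conformal cycles, sharpness of a unique integral optimum, forest support. -/

set_option autoImplicit false
open Finset

namespace Crest.Agent.N325.Fl

variable {V E : Type*} [Fintype V] [Fintype E] [DecidableEq V]

/-- a nonzero real circulation contains a conformal `0, ±1` circulation. -/
theorem exists_cycle (src dst : E → V) (d : E → ℝ) (hd : ∀ v, dv src dst d v = 0)
    (e0 : E) (he0 : d e0 ≠ 0) :
    ∃ z : E → ℤ, (∀ v, dv src dst z v = 0) ∧ (∃ e, z e ≠ 0) ∧
      ∀ e, z e = 0 ∨ (z e = 1 ∧ 0 < d e) ∨ (z e = -1 ∧ d e < 0) := by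
  classical
  let hd' : E → V := fun e => if 0 < d e then dst e else src e
  let tl : E → V := fun e => if 0 < d e then src e else dst e
  have hout : ∀ v, (∃ e, d e ≠ 0 ∧ hd' e = v) → ∃ e, d e ≠ 0 ∧ tl e = v := by
    rintro v ⟨e1, h1, h2⟩
    by_contra hno
    push Not at hno
    have hv := hd v
    unfold dv at hv
    rw [← sum_sub_distrib] at hv
    have hnn : ∀ e ∈ (univ : Finset E),
        0 ≤ (if dst e = v then d e else 0) - (if src e = v then d e else 0) := by
      intro e _
      rcases lt_trichotomy (d e) 0 with h | h | h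
      · have := hno e h.ne
        simp only [tl, not_lt.2 h.le, if_false] at this
        simp only [this, if_false]; split_ifs <;> linarith
      · simp [h]
      · have := hno e h.ne'
        simp only [tl, h, if_true] at this
        simp only [this, if_false]; split_ifs <;> linarith
    have := (sum_eq_zero_iff_of_nonneg hnn).1 hv e1 (mem_univ _)
    have h3 := hno e1 h1
    by_cases h : 0 < d e1
    · simp only [tl, hd', h, if_true] at h2 h3
      simp [h2, h3, h1] at this
    · simp only [tl, hd', h, if_false] at h2 h3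
      simp [h2, h3, h1] at this
  let out : V → E := fun v => if h : ∃ e, d e ≠ 0 ∧ tl e = v then h.choose else e0
  have hout' : ∀ v, (∃ e, d e ≠ 0 ∧ hd' e = v) → d (out v) ≠ 0 ∧ tl (out v) = v := by
    intro v hv
    have h := hout v hv
    simp only [out, dif_pos h]
    exact h.choose_spec
  let σ : V → V := fun v => hd' (out v)
  let Good : Finset V → Prop := fun P =>
    P.Nonempty ∧ (∀ v ∈ P, ∃ e, d e ≠ 0 ∧ hd' e = v) ∧ ∀ v ∈ P, σ v ∈ P
  have hex : ∃ k, ∃ P, Good P ∧ #P = k := by
    refine ⟨_, univ.filter (fun v => ∃ e, d e ≠ 0 ∧ hd' e = v), ⟨⟨hd' e0, ?_⟩, ?_, ?_⟩, rfl⟩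
    · simp only [mem_filter, mem_univ, true_and]; exact ⟨e0, he0, rfl⟩
    · intro v hv; exact (mem_filter.1 hv).2
    · intro v hv
      simp only [mem_filter, mem_univ, true_and] at hv ⊢
      exact ⟨out v, (hout' v hv).1, rfl⟩
  obtain ⟨P, ⟨hne, hP, hσ⟩, hk⟩ := Nat.find_spec hex
  have himg : P.image σ ⊆ P := by
    intro w hw; obtain ⟨v, hv, rfl⟩ := mem_image.1 hw; exact hσ v hv
  have hcard : #P ≤ #(P.image σ) := by
    rw [hk]
    refine Nat.find_min' hex ⟨_, ⟨hne.image _, fun v hv => hP v (himg hv), fun v hv => ?_⟩, rfl⟩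
    exact mem_image_of_mem _ (himg hv)
  have heq : P.image σ = P := eq_of_subset_of_card_le himg hcard
  have hinj : Set.InjOn σ P := card_image_iff.1 (by rw [heq])
  let s : E → ℤ := fun e => if 0 < d e then 1 else -1
  let z : E → ℤ := fun e => ∑ v ∈ P, if out v = e then s e else 0
  have hz : ∀ e, z e = if tl e ∈ P ∧ out (tl e) = e then s e else 0 := by
    intro e
    simp only [z]
    split_ifs with h
    · rw [sum_eq_single (tl e)]
      · simp [h.2]
      · intro v hv hne'
        rw [if_neg]
        rintro rfl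
        exact hne' (hout' v (hP v hv)).2.symm
      · intro h'; exact absurd h.1 h'
    · refine sum_eq_zero fun v hv => if_neg ?_
      rintro rfl
      have := (hout' v (hP v hv)).2
      exact h ⟨by rw [this]; exact hv, by rw [this]⟩
  refine ⟨z, fun w => ?_, ?_, fun e => ?_⟩
  · have h1 : ∀ p : E → V, (∑ e, if p e = w then z e else 0) =
        ∑ v ∈ P, if p (out v) = w then s (out v) else 0 := by
      intro p
      have : ∀ e, (if p e = w then z e else 0) =
          ∑ v ∈ P, if out v = e then (if p e = w then s e else 0) else 0 := by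
        intro e; simp only [z]; split_ifs <;> simp
      simp_rw [this]
      rw [sum_comm]
      refine sum_congr rfl fun v _ => ?_
      simp
    unfold dv
    rw [h1, h1, ← sum_sub_distrib]
    have h2 : ∀ v ∈ P, ((if dst (out v) = w then s (out v) else 0) -
        if src (out v) = w then s (out v) else 0) =
        (if σ v = w then (1 : ℤ) else 0) - if v = w then 1 else 0 := by
      intro v hv
      have h3 := (hout' v (hP v hv)).2
      by_cases h : 0 < d (out v)
      · simp only [tl, h, if_true] at h3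
        simp only [s, σ, hd', h, if_true, h3]
      · simp only [tl, h, if_false] at h3
        simp only [s, σ, hd', h, if_false, h3]
        split_ifs <;> simp
    rw [sum_congr rfl h2, sum_sub_distrib]
    have h4 : ∑ v ∈ P, (if σ v = w then (1 : ℤ) else 0) =
        ∑ v ∈ P, if v = w then 1 else 0 := by
      conv_rhs => rw [← heq, sum_image hinj]
    rw [h4, sub_self]
  · obtain ⟨v, hv⟩ := hne
    have h3 := (hout' v (hP v hv)).2
    refine ⟨out v, ?_⟩
    rw [hz, if_pos ⟨by rw [h3]; exact hv, by rw [h3]⟩]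
    simp only [s]; split_ifs <;> simp
  · rw [hz]
    split_ifs with h
    · have h3 := (hout' _ (hP _ h.1)).1
      rw [h.2] at h3
      by_cases h' : 0 < d e
      · right; left; simp [s, h']
      · right; right; exact ⟨by simp [s, h'], lt_of_le_of_ne (not_lt.1 h') h3⟩
    · left; rfl

/-- `xs` is the unique cheapest nonnegative integral vector with its divergence. -/
def Uniq (src dst : E → V) (c xs : E → ℤ) : Prop :=
  (∀ e, 0 ≤ xs e) ∧ ∀ x : E → ℤ, (∀ e, 0 ≤ x e) → (∀ v, dv src dst x v = dv src dst xs v) →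
    x ≠ xs → ∑ e, c e * xs e < ∑ e, c e * x e

theorem Uniq.circ {src dst : E → V} {c xs : E → ℤ} (h : Uniq src dst c xs) (d : E → ℝ)
    (hd : ∀ v, dv src dst d v = 0) (hs : ∀ e, d e < 0 → xs e ≠ 0) (e1 : E) :
    |d e1| ≤ ∑ e, (c e : ℝ) * d e := by
  classical
  induction hk : #(univ.filter fun e => d e ≠ 0) using Nat.strong_induction_on generalizing d with
  | _ k ih =>
  by_cases h0 : ∀ e, d e = 0
  · simp [h0]
  push Not at h0
  obtain ⟨e0, he0⟩ := h0
  obtain ⟨z, hz, ⟨e2, he2⟩, hc⟩ := exists_cycle src dst d hd e0 he0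
  obtain ⟨e3, he3, hmin⟩ := exists_min_image (univ.filter fun e => z e ≠ 0) (fun e => |d e|)
    ⟨e2, by simpa using he2⟩
  have he3' : z e3 ≠ 0 := (mem_filter.1 he3).2
  have hmin' : ∀ e, z e ≠ 0 → |d e3| ≤ |d e| := fun e he => hmin e (by simpa using he)
  set μ := |d e3| with hμ
  have hμ0 : 0 ≤ μ := abs_nonneg _
  have hcost : (1 : ℝ) ≤ ∑ e, (c e : ℝ) * (z e : ℝ) := by
    have h1 := h.2 (fun e => xs e + z e) (fun e => ?_) (fun v => by rw [dv_add, hz]; simp) ?_
    · simp only [mul_add, sum_add_distrib] at h1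
      have : (1 : ℤ) ≤ ∑ e, c e * z e := by omega
      exact_mod_cast this
    · have := h.1 e
      rcases hc e with h' | h' | h'
      · omega
      · omega
      · have := hs e h'.2; omega
    · intro hh
      have := congrFun hh e2
      simp only [add_eq_left] at this
      exact he2 this
  let d' : E → ℝ := fun e => d e - μ * (z e : ℝ)
  have hd' : ∀ v, dv src dst d' v = 0 := by
    intro v
    simp only [d']
    rw [dv_sub, dv_smul, dv_cast, hz, hd]; simp
  have hloc : ∀ e, (d e = 0 → d' e = 0) ∧ (d' e < 0 → d e < 0) ∧ |d e| ≤ |d' e| + μ := by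
    intro e
    rcases hc e with h' | h' | h'
    · simp only [d', h']; simp [hμ0]
    · have := hmin' e (by omega)
      rw [abs_of_pos h'.2] at this
      simp only [d', h'.1, Int.cast_one, mul_one]
      refine ⟨fun h0 => absurd h0 h'.2.ne', fun h0 => by linarith, ?_⟩
      rw [abs_of_pos h'.2, abs_of_nonneg (by linarith)]; linarith
    · have := hmin' e (by omega)
      rw [abs_of_neg h'.2] at this
      simp only [d', h'.1, Int.cast_neg, Int.cast_one, mul_neg, mul_one, sub_neg_eq_add]
      refine ⟨fun h0 => absurd h0 h'.2.ne, fun _ => h'.2, ?_⟩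
      rw [abs_of_neg h'.2, abs_of_nonpos (by linarith)]; linarith
  have hlt : #(univ.filter fun e => d' e ≠ 0) < k := by
    rw [← hk]
    refine card_lt_card ⟨fun e he => ?_, fun hsub => ?_⟩
    · simp only [mem_filter, mem_univ, true_and] at he ⊢
      exact fun h0 => he ((hloc e).1 h0)
    · have h3 : d e3 ≠ 0 ∧ d' e3 = 0 := by
        rcases hc e3 with h' | h' | h'
        · exact absurd h' he3'
        · refine ⟨h'.2.ne', ?_⟩
          simp only [d', h'.1, hμ, abs_of_pos h'.2]; simp
        · refine ⟨h'.2.ne, ?_⟩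
          simp only [d', h'.1, hμ, abs_of_neg h'.2]; simp
      have := hsub (mem_filter.2 ⟨mem_univ _, h3.1⟩)
      exact (mem_filter.1 this).2 h3.2
  have h5 := ih _ hlt d' hd' (fun e he => hs e ((hloc e).2.1 he)) rfl
  have h6 : ∑ e, (c e : ℝ) * d e =
      ∑ e, (c e : ℝ) * d' e + μ * ∑ e, (c e : ℝ) * (z e : ℝ) := by
    rw [mul_sum, ← sum_add_distrib]
    refine sum_congr rfl fun e _ => ?_
    simp only [d']; ring
  have := (hloc e1).2.2
  rw [h6]; nlinarith

/-- sharpness: every real feasible point is within its excess cost of the optimum. -/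
theorem Uniq.sharp {src dst : E → V} {c xs : E → ℤ} (h : Uniq src dst c xs) (x : E → ℝ)
    (hx : ∀ e, 0 ≤ x e) (hb : ∀ v, dv src dst x v = ((dv src dst xs v : ℤ) : ℝ)) (e1 : E) :
    |x e1 - xs e1| ≤ ∑ e, (c e : ℝ) * x e - ∑ e, (c e : ℝ) * xs e := by
  have := h.circ (fun e => x e - xs e) (fun v => by rw [dv_sub, dv_cast, hb]; simp)
    (fun e he h0 => by rw [h0] at he; have := hx e; simp at he; linarith) e1
  simpa [mul_sub, sum_sub_distrib] using this

/-- no nonzero circulation lives on the support of the optimum. -/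
theorem Uniq.circ_zero {src dst : E → V} {c xs : E → ℤ} (h : Uniq src dst c xs) (d : E → ℝ)
    (hd : ∀ v, dv src dst d v = 0) (hs : ∀ e, d e ≠ 0 → xs e ≠ 0) (e1 : E) : d e1 = 0 := by
  have h1 := h.circ d hd (fun e he => hs e he.ne) e1
  have h2 := h.circ (fun e => (-1) * d e) (fun v => by rw [dv_smul, hd]; simp)
    (fun e he => hs e (fun h0 => by simp [h0] at he)) e1
  simp only [neg_mul, one_mul, abs_neg, mul_neg, sum_neg_distrib] at h2
  have := abs_nonneg (d e1)
  exact abs_eq_zero.1 (by linarith)

end Crest.Agent.N325.Fl
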